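import Vale.Agent.P287.Bdl.B1

namespace Vale.Agent.Results.P287.Planes42

open Vale.Agent.P287 MvPolynomial

/-- A smooth cubic fourfold over `ℂ` that contains at least 42 planes contains two disjoint
planes and is rational. -/
theorem result (f : MvPolynomial (Fin 6) ℂ) (hf : IsSmoothCubic f)
    (h : 42 ≤ {W : Submodule ℂ (Fin 6 → ℂ) | IsPlane f W}.encard) :
    (∃ W W', IsPlane f W ∧ IsPlane f W' ∧ W ⊓ W' = ⊥) ∧ IsRational f := by
  obtain ⟨W, W', h1, h2, h12⟩ := exists_disjoint42 hf h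
  exact ⟨⟨W, W', h1, h2, h12⟩, rational_of_disjoint hf h1 h2 h12⟩

end Vale.Agent.Results.P287.Planes42
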